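import Vale.Agent.P283.Bdl.B1

/-!
# Bounded klt complements for quotients of `x₀ x₁ ⋯ x_q = g(z₁, …, z_k)`
-/

namespace Vale.Agent.Results.P283.QuotientComplements

open MvPolynomial Vale.Agent.P283.Q

/-- Bounded klt complements: for all `d ≥ 1` and `ε > 0` there is `n ≥ 1` such that every
effective `ε`-lc pair `(X, B)` which is a quotient, in the sense of `K + B`, of a pair
`(Y, ∑ b_j div(z_j))` with `Y = {x₀ x₁ ⋯ x_q = g(z₁, …, z_k)}` of dimension `q + k = d`, has a
klt `n`-complement over every closed point (with `Z = X`). -/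
theorem result : ∀ d : ℕ, 0 < d → ∀ ε : ℝ, 0 < ε → ∃ n : ℕ, 0 < n ∧
    ∀ q k : ℕ, q + k = d → ∀ (K L : Type) [Field K] [Field L] [Algebra ℂ K] [Algebra ℂ L]
      [Algebra K L] [IsScalarTower ℂ K L] (x : Fin (q + 1) → L) (z : Fin k → L)
      (g : MvPolynomial (Fin k) ℂ) (b : Fin k → ℚ) (G : Subgroup (L ≃ₐ[ℂ] L))
      (A : Subalgebra ℂ K), IsQuotient x z g b G A →
    ∀ D : Fin (q + k) → Derivation ℂ K K, (∃ f, jac D f ≠ 0) →
    ∀ B : QDivisor A, (∀ p, 0 ≤ B.coeff p) → IsCrepant x z b A D B → IsEpsLC D B ε →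
    ∀ m : Ideal A, m.IsMaximal → HasKltComplement D B n m :=
  Vale.Agent.P283.main

end Vale.Agent.Results.P283.QuotientComplements
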